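import Crest.Agent.X212.Rad96.Defs

/-! DEG: the extended Hessian at a critical point of the radial mass. -/

set_option autoImplicit false
set_option linter.unusedSectionVars false

noncomputable section

namespace Crest.Agent.X212.Deg23

open Set Filter Topology Function Module Asymptotics
open scoped InnerProductSpace
open Fred93 (Fr)
open Crt72 Rad96

variable {X₁ X₀ : Type*} [NormedAddCommGroup X₁] [NormedSpace ℝ X₁] [CompleteSpace X₁]
  [NormedAddCommGroup X₀] [InnerProductSpace ℝ X₀] [CompleteSpace X₀]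

/-- first order perturbation, uniformly near the direction `c` -/
theorem pertB {i T : X₁ →L[ℝ] X₀} (hi : IsCompactOperator i) (hT : Fr T 0)
    (hs : ∀ u v, ⟪T u, i v⟫_ℝ = ⟪i u, T v⟫_ℝ) {c : X₀ →L[ℝ] X₀}
    (hn : ∀ k, T k = 0 → (∀ k', T k' = 0 → ⟪c (i k), i k'⟫_ℝ = 0) → k = 0) :
    ∀ᶠ z : ℝ × (X₀ →L[ℝ] X₀) in 𝓝 (0, c), z.1 ≠ 0 → Bijective (T + (z.1 • z.2).comp i) := by
  have := hT.1.finite_ker
  obtain ⟨π, hπ⟩ := Submodule.ClosedComplemented.of_finiteDimensional T.ker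
  let Q : X₁ →L[ℝ] X₁ := T.ker.subtypeL.comp π
  have hQ : ∀ u, T (Q u) = 0 := fun u => (π u).2
  have hQk : ∀ u, T u = 0 → Q u = u := fun u hu => congrArg Subtype.val (hπ ⟨u, hu⟩)
  let S : ℝ × (X₀ →L[ℝ] X₀) → X₁ →L[ℝ] X₀ := fun z =>
    T + z.2.comp (i.comp Q) + z.1 • z.2.comp (i.comp (1 - Q))
  have hS : Continuous S := (continuous_const.add (continuous_snd.clm_comp continuous_const)).add
    (continuous_fst.smul (continuous_snd.clm_comp continuous_const))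
  have h0 : Bijective (S (0, c)) := by
    have hinj : Injective (T + c.comp (i.comp Q)) := by
      rw [injective_iff_map_eq_zero]
      intro u hu
      have hu' : T u + c (i (Q u)) = 0 := hu
      have h1 : Q u = 0 := hn _ (hQ u) fun k' hk' => by
        have := congrArg (fun y => ⟪y, i k'⟫_ℝ) hu'
        simpa [inner_add_left, hs, hk'] using this
      rw [h1, map_zero, map_zero, add_zero] at hu'
      rw [← hQk u hu', h1]
    rw [show S (0, c) = T + c.comp (i.comp Q) by simp [S]]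
    exact ⟨hinj, (hT.add_compact ((hi.comp_clm Q).clm_comp c)).surj_of_inj hinj⟩
  filter_upwards [hS.continuousAt.eventually (isOpen_bij.mem_nhds h0)] with z h hε
  have hinj : Injective (T + (z.1 • z.2).comp i) := by
    rw [injective_iff_map_eq_zero]
    intro u hu
    have hu' : T u + z.1 • z.2 (i u) = 0 := hu
    have hQQ : Q (Q u) = Q u := hQk _ (hQ u)
    have h2 : S z (u - Q u + z.1 • Q u) = 0 := by
      rw [← hu']
      simp only [S, add_apply, ContinuousLinearMap.comp_apply, smul_apply, sub_apply,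
        one_apply_eq_self, map_add, map_sub, map_smul, hQQ, hQ]
      module
    have h3 := (injective_iff_map_eq_zero _).1 h.1 _ h2
    have h4 := congrArg Q h3
    rw [map_add, map_sub, map_smul, hQQ, sub_self, zero_add, map_zero] at h4
    have h5 : Q u = 0 := (smul_eq_zero.1 h4).resolve_left hε
    simpa [h5] using h3
  exact ⟨hinj, (hT.add_compact (hi.clm_comp (z.1 • z.2))).surj_of_inj hinj⟩

section sf

variable {i L : X₁ →L[ℝ] X₀} {A : Submodule ℝ (X₀ →L[ℝ] X₀)}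
  {sf : (X₀ →L[ℝ] X₀) → (X₀ →L[ℝ] X₀) → ℤ} (H : SF i L A sf) {a c c' : X₀ →L[ℝ] X₀}
include H

theorem tt_mem (ha : a ∈ A) {x : X₁} (hx : Op i L a x = 0) : tt (i x) ∈ A := by
  by_cases h0 : i x = 0
  · rw [show tt (i x) = 0 by ext; simp [tt_apply, h0]]; exact A.zero_mem
  have hn : ⟪i x, i x⟫_ℝ ≠ 0 := inner_self_ne_zero.2 h0
  have := A.smul_mem ⟪i x, i x⟫_ℝ (H.pj a ha (ℝ ∙ x) ((Submodule.span_singleton_le_iff_mem _ _).2 hx)
    ((⟪i x, i x⟫_ℝ)⁻¹ • tt (i x)) ⟨fun y z => ?_, fun k hk => ?_, fun y => ⟨((⟪i x, i x⟫_ℝ)⁻¹ *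
      ⟪i x, y⟫_ℝ) • x, Submodule.smul_mem _ _ (Submodule.mem_span_singleton_self x), ?_⟩⟩)
  · rwa [smul_inv_smul₀ hn] at this
  · simp only [smul_apply, tt_apply, real_inner_smul_left, real_inner_smul_right, real_inner_comm y]
    ring
  · obtain ⟨t, rfl⟩ := Submodule.mem_span_singleton.1 hk
    simp only [smul_apply, tt_apply, map_smul, smul_smul, inv_mul_cancel₀ hn, mul_one]
  · simp only [smul_apply, tt_apply, map_smul, smul_smul]

theorem homp (ha : a ∈ A) (hc : c ∈ A) (hc' : c' ∈ A) (hn : ∀ s ∈ Icc (0 : ℝ) 1, ∀ k,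
    Op i L a k = 0 → (∀ k', Op i L a k' = 0 → ⟪(c + s • (c' - c)) (i k), i k'⟫_ℝ = 0) → k = 0) :
    ∀ᶠ ε in 𝓝[>] (0 : ℝ), Bijective (Op i L (a + ε • c)) ∧ Bijective (Op i L (a + ε • c')) ∧
      sf (a + ε • c) (a + ε • c') = 0 := by
  filter_upwards [nhdsGT_le_nhdsNE _ (pert H.cpt (H.frOp a) (H.symOp ha)
    (c := fun s => c + s • (c' - c)) (by fun_prop) hn)] with ε h
  have b : ∀ s ∈ Icc (0 : ℝ) 1, Bijective (Op i L (a + ε • c + s • (a + ε • c' - (a + ε • c)))) :=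
    fun s hs => by
      have := h s hs
      rw [← Op_add] at this
      convert this using 3
      module
  exact ⟨by simpa using b 0 ⟨le_rfl, zero_le_one⟩, by simpa using b 1 ⟨zero_le_one, le_rfl⟩,
    H.hom _ (A.add_mem ha (A.smul_mem _ hc)) _ (A.add_mem ha (A.smul_mem _ hc')) b⟩

theorem jump (ha : a ∈ A) (hc : c ∈ A) (hp : ∀ k ∈ (Op i L a).ker, k ≠ 0 → 0 < ⟪c (i k), i k⟫_ℝ) :
    ∀ᶠ ε in 𝓝[>] (0 : ℝ), Bijective (Op i L (a + ε • c)) ∧ Bijective (Op i L (a + ε • -c)) ∧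
      sf (a + ε • c) (a + ε • -c) = -finrank ℝ (Op i L a).ker := by
  have := (H.frOp a).1.finite_ker
  obtain ⟨Q, hQ⟩ := exists_isPj i (Op i L a).ker
  filter_upwards [H.cross ha hc hQ (K₂ := ⊥) (sup_bot_eq _) (by simp) hp (by simp),
    H.cross ha (A.neg_mem hc) hQ (K₁ := ⊥) (bot_sup_eq _) (by simp) (by simp)
      fun k hk h0 => by simpa using hp k hk h0] with ε h1 h2
  have := H.add _ (A.sub_mem ha (A.smul_mem ε (H.pj a ha _ le_rfl Q hQ))) _
    (A.add_mem ha (A.smul_mem ε hc)) _ (A.add_mem ha (A.smul_mem ε (A.neg_mem hc))) h1.2.1 h1.1 h2.1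
  rw [h1.2.2, h2.2.2, finrank_bot] at this
  exact ⟨h1.1, h2.1, by omega⟩

end sf

section dat

variable {i T : X₁ →L[ℝ] X₀} {P₁ J₁ : X₁ →L[ℝ] X₁} {P J : X₀ →L[ℝ] X₀} {e u x : X₁} {s : ℝ}
  (D : Dat i T (.id ℝ X₀) P₁ J₁ P J e)
include D

theorem PP (y : X₀) : P (P y) = P y := by
  have := D.PJ (J y)
  rwa [D.JJ, map_neg, neg_inj] at this

theorem Pf : P (i e) = 0 := by rw [← D.iP, D.Pe, map_zero]

theorem fP (y : X₀) : ⟪i e, P y⟫_ℝ = 0 := by
  have : ⟪P (i e), y⟫_ℝ = ⟪i e, P y⟫_ℝ := D.Psym _ _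
  rw [← this, Pf D, inner_zero_left]

theorem ff : ⟪i e, i e⟫_ℝ = 1 := by
  have : ‖i e‖ = 1 := D.ne
  rw [real_inner_self_eq_norm_sq, this, one_pow]

theorem ker0 (hx : T x = s • P (i x)) : P₁ x ∈ Eig i T P₁ s ∧ ∃ t : ℝ, x = P₁ x + t • e := by
  have h1 : P₁ (P₁ x) = P₁ x := D.inj (by rw [D.iP, D.iP, PP D])
  have h2 : T (P₁ x) = s • i (P₁ x) := by rw [D.TP, hx, map_smul, PP D, D.iP]
  obtain ⟨t, ht⟩ := D.frm (x - P₁ x) (by rw [map_sub, h1, sub_self])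
    (by rw [map_sub, h2, hx, D.iP, sub_self])
  exact ⟨mem_Eig.2 ⟨h1, h2⟩, t, by rw [← ht]; abel⟩

theorem Pp (hu : u ∈ Eig i T P₁ s) : P (i u) = i u := by rw [← D.iP, (mem_Eig.1 hu).1]

theorem J_mem (hu : u ∈ Eig i T P₁ s) : J₁ u ∈ Eig i T P₁ s :=
  mem_Eig.2 ⟨D.inj (by rw [D.iP, D.iJ, D.PJ]), by rw [D.TJ, (mem_Eig.1 hu).2, map_smul, D.iJ]⟩

theorem pq (y : X₀) : ⟪y, J y⟫_ℝ = 0 := by
  have : ⟪J y, y⟫_ℝ = -⟪y, J y⟫_ℝ := D.Jskew _ _
  rw [real_inner_comm] at this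
  linarith

theorem qq (hu : u ∈ Eig i T P₁ s) : ⟪J (i u), J (i u)⟫_ℝ = ⟪i u, i u⟫_ℝ := by
  have : ⟪J (i u), J (i u)⟫_ℝ = -⟪i u, J (J (i u))⟫_ℝ := D.Jskew _ _
  rw [this, D.JJ, Pp D hu, inner_neg_right, neg_neg]

theorem npos (h0 : u ≠ 0) : 0 < ⟪i u, i u⟫_ℝ :=
  real_inner_self_pos.2 fun h => h0 (D.inj (h.trans (map_zero i).symm))

theorem eig_span [FiniteDimensional ℝ (Eig i T P₁ s)] (hu : u ∈ Eig i T P₁ s) (h0 : u ≠ 0)
    (h2 : finrank ℝ (Eig i T P₁ s) ≤ 2) : finrank ℝ (Eig i T P₁ s) = 2 ∧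
      ∀ x ∈ Eig i T P₁ s, ∃ b c : ℝ, b • u + c • J₁ u = x := by
  have hn := (npos D h0).ne'
  have li : LinearIndependent ℝ ![u, J₁ u] := LinearIndependent.pair_iff.2 fun b c h => by
    have a1 := congrArg (fun y => ⟪i u, i y⟫_ℝ) h
    have a2 := congrArg (fun y => ⟪i y, J (i u)⟫_ℝ) h
    simp only [map_add, map_smul, inner_add_right, inner_add_left, real_inner_smul_left, D.iJ,
      real_inner_smul_right, pq D, qq D hu, map_zero, inner_zero_left, inner_zero_right, mul_zero,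
      add_zero, zero_add, mul_eq_zero, hn, or_false] at a1 a2
    exact ⟨a1, a2⟩
  have h3 := finrank_span_eq_card li
  rw [Matrix.range_cons, Matrix.range_cons, Matrix.range_empty, union_empty, Fintype.card_fin,
    singleton_union] at h3
  have h4 := Submodule.eq_of_le_of_finrank_le (S₁ := Submodule.span ℝ {u, J₁ u})
    (Submodule.span_le.2 (pair_subset hu (J_mem D hu))) (h3 ▸ h2)
  exact ⟨h4 ▸ h3, fun x hx => Submodule.mem_span_pair.1 (h4 ▸ hx)⟩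

theorem sy (x y : X₁) : ⟪T x - s • P (i x), i y⟫_ℝ = ⟪i x, T y - s • P (i y)⟫_ℝ := by
  have a1 : ⟪T x, i y⟫_ℝ = ⟪i x, T y⟫_ℝ := D.sym _ _
  have a2 : ⟪P (i x), i y⟫_ℝ = ⟪i x, P (i y)⟫_ℝ := D.Psym _ _
  simp only [inner_sub_left, inner_sub_right, real_inner_smul_left, real_inner_smul_right, a1, a2]

theorem kerR : T x - s • P (i x) - tt (i e) (i x) = 0 ↔ x ∈ Eig i T P₁ s := by
  rw [tt_apply]
  refine ⟨fun h => ?_, fun h => ?_⟩
  · have a1 := congrArg (fun y => ⟪y, i e⟫_ℝ) h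
    simp only [inner_sub_left (T x - s • P (i x)), sy D, D.Te, Pf D, real_inner_smul_left, ff D] at a1
    replace a1 : ⟪i e, i x⟫_ℝ = 0 := by simpa using a1
    rw [a1, zero_smul, sub_zero, sub_eq_zero] at h
    obtain ⟨b1, t, b2⟩ := ker0 D h
    rw [b2, map_add, map_smul, D.iP, inner_add_right, fP D, real_inner_smul_right, ff D, zero_add,
      mul_one] at a1
    rwa [b2, a1, zero_smul, add_zero]
  · rw [← Pp D h, fP D, PP D, Pp D h, (mem_Eig.1 h).2, zero_smul, sub_self, sub_zero]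

theorem kerM (hu : u ∈ Eig i T P₁ s) (h0 : u ≠ 0)
    (hs : ∀ x ∈ Eig i T P₁ s, ∃ b c : ℝ, b • u + c • J₁ u = x) {α β γ : ℝ}
    (h : T x - s • P (i x) + α • tt (i e) (i x) + β • tt (i u) (i x) + γ • tt (J (i u)) (i x) = 0) :
    ∃ a b c : ℝ, x = a • e + b • u + c • J₁ u ∧ α * a = 0 ∧ β * b = 0 ∧ γ * c = 0 := by
  have hn := (npos D h0).ne'
  have f1 : ⟪i e, i u⟫_ℝ = 0 := by rw [← Pp D hu, fP D]
  have f2 : ⟪i e, J (i u)⟫_ℝ = 0 := by rw [← D.PJ, fP D]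
  have f3 : ⟪i u, i e⟫_ℝ = 0 := by rw [real_inner_comm, f1]
  have f4 : ⟪J (i u), i e⟫_ℝ = 0 := by rw [real_inner_comm, f2]
  have f5 : ⟪J (i u), i u⟫_ℝ = 0 := by rw [real_inner_comm, pq D]
  have k : ∀ y ∈ Eig i T P₁ s, ⟪T x - s • P (i x), i y⟫_ℝ = 0 := fun y hy => by
    rw [sy D, Pp D hy, (mem_Eig.1 hy).2, sub_self, inner_zero_right]
  have k0 : ⟪T x - s • P (i x), i e⟫_ℝ = 0 := by simp [sy D, D.Te, Pf D]
  have k2 := k _ (J_mem D hu)
  rw [D.iJ] at k2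
  have a1 := congrArg (fun y => ⟪y, i e⟫_ℝ) h
  have a2 := congrArg (fun y => ⟪y, i u⟫_ℝ) h
  have a3 := congrArg (fun y => ⟪y, J (i u)⟫_ℝ) h
  simp only [tt_apply, smul_smul] at h
  simp only [tt_apply, inner_add_left, real_inner_smul_left, k0, k u hu, k2, f1, f2, f3, f4, f5,
    ff D, pq D, qq D hu, mul_zero, add_zero, zero_add, inner_zero_left, mul_one, ← mul_assoc,
    mul_eq_zero (b := ⟪i u, i u⟫_ℝ), hn, or_false] at a1 a2 a3
  rw [a1, a2, a3, zero_smul, zero_smul, zero_smul, add_zero, add_zero, add_zero, sub_eq_zero] at h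
  obtain ⟨b1, t, b2⟩ := ker0 D h
  obtain ⟨b, c, b3⟩ := hs _ b1
  rw [← b3] at b2
  rw [b2] at a1 a2 a3
  simp only [map_add, map_smul, D.iJ, inner_add_right, real_inner_smul_right, f1, f2, f3, f4, f5,
    ff D, pq D, qq D hu, mul_zero, add_zero, zero_add, mul_one, ← mul_assoc,
    mul_eq_zero (b := ⟪i u, i u⟫_ℝ), hn, or_false] at a1 a2 a3
  exact ⟨t, b, c, by rw [b2]; abel, a1, a2, a3⟩

end dat

theorem deg : DegStmt := by
  intro X₁ X₀ _ _ _ _ _ _ i L A sf P₁ J₁ P J h c e u l β a H D hh hP hc ha hl hβ h0 hu hS h00 ce cP ho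
  have mE := tt_mem H hh D.Te
  have mR := A.sub_mem hh mE
  have mRs : ∀ s : ℝ, h - tt (i e) - s • P ∈ A := fun s => A.sub_mem mR (A.smul_mem s hP)
  have kR : ∀ (s : ℝ) x, Op i L (h - tt (i e) - s • P) x = 0 ↔ x ∈ Eig i (Op i L h) P₁ s :=
    fun s x => by
      rw [← kerR D]
      simp only [Op_apply, sub_apply, smul_apply]
      exact iff_of_eq (congrArg (· = 0) (by abel))
  have kR' : ∀ s : ℝ, (Op i L (h - tt (i e) - s • P)).ker = Eig i (Op i L h) P₁ s :=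
    fun s => Submodule.ext (kR s)
  have fd : ∀ s : ℝ, FiniteDimensional ℝ (Eig i (Op i L h) P₁ s) :=
    fun s => kR' s ▸ (H.frOp _).1.finite_ker
  have bj : ∀ s : ℝ, Bijective (Op i L (h - tt (i e) - s • P)) ↔ s ∉ Spec i (Op i L h) P₁ :=
    fun s => by
      rw [Spec, mem_ofPred_eq, not_not, ← kR', LinearMap.ker_eq_bot]
      exact ⟨fun h => h.1, fun h => ⟨h, (H.frOp _).surj_of_inj h⟩⟩
  have b0 : Bijective (Op i L (h - tt (i e))) := by simpa using (bj 0).2 h00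
  have jp : ∀ s : ℝ, ∀ᶠ ε in 𝓝[>] (0 : ℝ), s - ε ∉ Spec i (Op i L h) P₁ ∧
      s + ε ∉ Spec i (Op i L h) P₁ ∧ sf (h - tt (i e) - (s - ε) • P) (h - tt (i e) - (s + ε) • P) =
        -finrank ℝ (Eig i (Op i L h) P₁ s) := fun s => by
    filter_upwards [jump H (mRs s) hP fun k hk h0 => by
      rw [Pp D ((kR s k).1 hk)]; exact npos D h0] with ε h1
    rwa [show h - tt (i e) - s • P + ε • P = h - tt (i e) - (s - ε) • P by module,
      show h - tt (i e) - s • P + ε • -P = h - tt (i e) - (s + ε) • P by module, bj, bj, kR'] at h1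
  have lf : ∀ s : ℝ, ∃ η > 0, ∀ ε ∈ Ioo 0 η, s - ε ∉ Spec i (Op i L h) P₁ ∧
      s + ε ∉ Spec i (Op i L h) P₁ ∧ sf (h - tt (i e) - (s - ε) • P) (h - tt (i e) - (s + ε) • P) =
        -finrank ℝ (Eig i (Op i L h) P₁ s) := fun s => mem_nhdsGT_iff_exists_Ioo_subset.1 (jp s)
  have fin : (Spec i (Op i L h) P₁ ∩ Icc 0 l).Finite := by
    by_contra hi
    obtain ⟨s, -, hs⟩ := Infinite.exists_accPt_of_subset_isCompact hi isCompact_Icc inter_subset_right
    obtain ⟨η, hη, h1⟩ := lf s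
    obtain ⟨t, ⟨a1, a2, -⟩, a3⟩ := accPt_iff_nhds.1 hs _ (Ioo_mem_nhds (sub_lt_self s hη)
      (lt_add_of_pos_right s hη))
    rcases a3.lt_or_gt with a4 | a4
    · exact (h1 (s - t) ⟨by linarith, by linarith [a1.1]⟩).1 (by simpa using a2)
    · exact (h1 (t - s) ⟨by linarith, by linarith [a1.2]⟩).2.1 (by simpa using a2)
  have hm : ∀ s t : ℝ, s ≤ t → (∀ r ∈ Icc s t, r ∉ Spec i (Op i L h) P₁) →
      sf (h - tt (i e) - s • P) (h - tt (i e) - t • P) = 0 := fun s t h1 h2 =>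
    H.hom _ (mRs s) _ (mRs t) fun r hr => by
      have := (bj _).2 (h2 (s + r * (t - s)) ⟨by nlinarith [hr.1], by nlinarith [hr.2]⟩)
      convert this using 3
      module
  have cnt : ∀ (n : ℕ) (s : ℝ), s ∈ Icc 0 l → s ∉ Spec i (Op i L h) P₁ →
      (Spec i (Op i L h) P₁ ∩ Ioo 0 s).ncard = n →
      sf (h - tt (i e)) (h - tt (i e) - s • P) = -2 * n := fun n => by
    induction n with
    | zero =>
      intro s hs h1 h2
      rw [ncard_eq_zero (fin.subset fun r hr => ⟨hr.1, hr.2.1.le, hr.2.2.le.trans hs.2⟩)] at h2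
      have := hm 0 s hs.1 fun r hr h3 => by
        rcases hr.1.eq_or_lt with rfl | a1
        · exact h00 h3
        rcases hr.2.eq_or_lt with rfl | a2
        · exact h1 h3
        exact (h2 ▸ (⟨h3, a1, a2⟩ : r ∈ _ ∩ Ioo 0 s) : r ∈ (∅ : Set ℝ))
      simpa using this
    | succ n ih =>
      intro s hs h1 h2
      have f1 := fin.subset (show _ ∩ Ioo 0 s ⊆ _ from
        fun r hr => ⟨hr.1, hr.2.1.le, hr.2.2.le.trans hs.2⟩)
      obtain ⟨σ, ⟨s1, s2, s3⟩, s4⟩ := exists_max_image _ id f1 (nonempty_of_ncard_ne_zero (by omega))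
      obtain ⟨η, hη, h3⟩ := lf σ
      obtain ⟨ε, ⟨e0, e1⟩, ⟨-, e2⟩, -, e3⟩ := Filter.nonempty_of_mem (inter_mem (Ioo_mem_nhdsGT hη)
        (inter_mem (Ioo_mem_nhdsGT s2) (Ioo_mem_nhdsGT (sub_pos.2 s3))))
      obtain ⟨a1, a2, a3⟩ := h3 ε ⟨e0, e1⟩
      have a4 : Spec i (Op i L h) P₁ ∩ Ioo 0 (σ - ε) = (Spec i (Op i L h) P₁ ∩ Ioo 0 s) \ {σ} := by
        refine Subset.antisymm (fun r hr => ⟨⟨hr.1, hr.2.1, by linarith [hr.2.2]⟩,
          (by linarith [hr.2.2] : r < σ).ne⟩) fun r hr => ⟨hr.1.1, hr.1.2.1, not_le.1 fun h4 => ?_⟩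
        exact (h3 (σ - r) ⟨sub_pos.2 ((s4 r hr.1).lt_of_ne hr.2), by linarith⟩).1
          (by simpa using hr.1.1)
      have a5 := ih (σ - ε) ⟨by linarith, by linarith [hs.2]⟩ a1
        (by rw [a4, ncard_sdiff_singleton_of_mem (mem_inter s1 (mem_Ioo.2 ⟨s2, s3⟩)), h2]; rfl)
      obtain ⟨x, x1, x2⟩ := Submodule.exists_mem_ne_zero_of_ne_bot s1
      have := fd σ
      rw [(eig_span D x1 x2 (hS σ ⟨s2.le, s3.le.trans hs.2⟩)).1] at a3
      have a6 := hm (σ + ε) s (by linarith) fun r hr h4 => by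
        rcases hr.2.eq_or_lt with rfl | a2
        · exact h1 h4
        · linarith [hr.1, show r ≤ σ from s4 r ⟨h4, by linarith [hr.1], a2⟩]
      rw [← H.add _ mR _ (mRs (σ + ε)) _ (mRs s) b0 ((bj _).2 a2) ((bj _).2 h1),
        ← H.add _ mR _ (mRs (σ - ε)) _ (mRs _) b0 ((bj _).2 a1) ((bj _).2 a2), a5, a3, a6]
      push_cast; ring
  have := fd l
  have sp := (eig_span D hu h0 (hS l ⟨hl.le, le_rfl⟩)).2
  have hn := npos D h0
  have mL := A.sub_mem hh (A.smul_mem l hP)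
  have kL : ∀ x ∈ Eig i (Op i L h) P₁ l, Op i L (h - l • P) x = 0 := fun x hx => by
    rw [sub_eq_add_neg, Op_add, add_apply, (mem_Eig.1 hx).2]
    simp [Pp D hx]
  have mU := tt_mem H mL (kL u hu)
  have mW := tt_mem H mL (kL _ (J_mem D hu))
  rw [D.iJ] at mW
  let M : ℝ → ℝ → ℝ → X₀ →L[ℝ] X₀ := fun α β γ =>
    h - l • P + α • tt (i e) + β • tt (i u) + γ • tt (J (i u))
  have mM : ∀ α β γ, M α β γ ∈ A := fun α β γ => A.add_mem (A.add_mem (A.add_mem mL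
    (A.smul_mem _ mE)) (A.smul_mem _ mU)) (A.smul_mem _ mW)
  have kM : ∀ α β γ x, Op i L (M α β γ) x = 0 → ∃ a b c : ℝ, x = a • e + b • u + c • J₁ u ∧
      α * a = 0 ∧ β * b = 0 ∧ γ * c = 0 := fun α β γ x hx => kerM D hu h0 sp (by
    rw [← hx]
    simp only [M, Op_apply, sub_apply, smul_apply, add_apply]
    abel)
  have bM : ∀ α β γ, α < 0 → 0 < β → 0 < γ → Bijective (Op i L (M α β γ)) :=
    fun α β γ h1 h2 h3 => H.bij_of_inj fun x hx => by
      obtain ⟨a, b, c, rfl, a1, a2, a3⟩ := kM _ _ _ x hx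
      simp [(mul_eq_zero.1 a1).resolve_left h1.ne, (mul_eq_zero.1 a2).resolve_left h2.ne',
        (mul_eq_zero.1 a3).resolve_left h3.ne']
  have f1 : ⟪i e, i u⟫_ℝ = 0 := by rw [← Pp D hu, fP D]
  have f2 : ⟪i e, J (i u)⟫_ℝ = 0 := by rw [← D.PJ, fP D]
  have f3 : ⟪i u, i e⟫_ℝ = 0 := by rw [real_inner_comm, f1]
  have f4 : ⟪J (i u), i e⟫_ℝ = 0 := by rw [real_inner_comm, f2]
  have f5 : ⟪J (i u), i u⟫_ℝ = 0 := by rw [real_inner_comm, pq D]
  have f6 : ⟪c (J (i u)), i e⟫_ℝ = ⟪i u, i u⟫_ℝ := by rw [H.symA c hc, ce, qq D hu]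
  have f7 : ⟪c (J (i u)), J (i u)⟫_ℝ = 0 := by
    have : ⟪P (c (P (J (i u)))), J (i u)⟫_ℝ = ⟪c (P (J (i u))), P (J (i u))⟫_ℝ := D.Psym _ _
    rw [cP, D.PJ, inner_zero_left] at this
    exact this.symm
  -- first crossing
  obtain ⟨η, hη, h1⟩ := lf l
  obtain ⟨ε, ⟨e1, e2, e3⟩, ⟨e0, e4⟩, -, e5⟩ := ((homp H (mRs l) hP (A.add_mem mU mW)
    fun s hs k hk h2 => by
      have k1 := (kR l k).1 hk
      have := h2 k hk
      obtain ⟨b, c, rfl⟩ := sp k k1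
      simp only [add_apply, smul_apply, sub_apply, tt_apply, map_add, map_smul, D.iJ, D.PJ, Pp D hu,
        inner_add_left, inner_sub_left, inner_add_right, real_inner_smul_left, real_inner_smul_right,
        f5, pq D, qq D hu] at this
      have a1 : 0 < (1 - s) * ⟪i u, i u⟫_ℝ + s * ⟪i u, i u⟫_ℝ ^ 2 := by
        rcases hs.1.eq_or_lt with rfl | a
        · simpa using hn
        · have := mul_nonneg (sub_nonneg.2 hs.2) hn.le
          positivity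
      have a2 : (b ^ 2 + c ^ 2) * ((1 - s) * ⟪i u, i u⟫_ℝ + s * ⟪i u, i u⟫_ℝ ^ 2) = 0 := by
        linear_combination this
      obtain ⟨a3, a4⟩ := (add_eq_zero_iff_of_nonneg (sq_nonneg b) (sq_nonneg c)).1
        ((mul_eq_zero.1 a2).resolve_right a1.ne')
      simp [pow_eq_zero_iff two_ne_zero |>.1 a3, pow_eq_zero_iff two_ne_zero |>.1 a4]).and
    (inter_mem (Ioo_mem_nhdsGT hη) (Ioo_mem_nhdsGT hl))).exists
  rw [show h - tt (i e) - l • P + ε • P = h - tt (i e) - (l - ε) • P by module] at e1 e3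
  rw [show h - tt (i e) - l • P + ε • (tt (i u) + tt (J (i u))) = M (-1) ε ε by
    simp only [M]; module] at e2 e3
  have c1 := cnt _ (l - ε) ⟨by linarith, by linarith⟩ ((bj _).1 e1) rfl
  rw [show Spec i (Op i L h) P₁ ∩ Ioo 0 (l - ε) = Spec i (Op i L h) P₁ ∩ Ioo 0 l from
    Subset.antisymm (fun r hr => ⟨hr.1, hr.2.1, by linarith [hr.2.2]⟩) fun r hr =>
      ⟨hr.1, hr.2.1, not_le.1 fun h4 => (h1 (l - r) ⟨sub_pos.2 hr.2.2, by linarith⟩).1
        (by simpa using hr.1)⟩] at c1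
  -- second crossing
  have nd : ∀ s ∈ Icc (0 : ℝ) 1, ∀ k, Op i L (M 0 β 0) k = 0 → (∀ k', Op i L (M 0 β 0) k' = 0 →
      ⟪(tt (J (i u)) - tt (i e) + s • (c - (tt (J (i u)) - tt (i e)))) (i k), i k'⟫_ℝ = 0) → k = 0 :=
    fun s hs k hk h2 => by
      obtain ⟨a, b, d, rfl, -, a2, -⟩ := kM _ _ _ k hk
      obtain rfl := (mul_eq_zero.1 a2).resolve_left hβ.ne'
      have a3 := h2 e (by
        have := D.Te
        simp only [M, Op_apply, sub_apply, smul_apply, add_apply, tt_apply, Pf D, f3] at this ⊢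
        simpa using this)
      have a4 := h2 (J₁ u) (by
        have := kL _ (J_mem D hu)
        simp only [M, Op_apply, sub_apply, smul_apply, add_apply, tt_apply, D.iJ, pq D] at this ⊢
        simpa using this)
      simp only [add_apply, smul_apply, sub_apply, tt_apply, map_add, map_smul, D.iJ, ce, zero_smul,
        add_zero, inner_add_left, inner_sub_left, real_inner_smul_left,
        f2, f4, f6, f7, ff D, qq D hu, inner_zero_left] at a3 a4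
      have a5 : 0 < ((1 - s) ^ 2 + s ^ 2) * ⟪i u, i u⟫_ℝ ^ 2 :=
        mul_pos (by nlinarith [sq_nonneg (1 - 2 * s)]) (by positivity)
      have a6 : a * (((1 - s) ^ 2 + s ^ 2) * ⟪i u, i u⟫_ℝ ^ 2) = 0 := by
        linear_combination s * ⟪i u, i u⟫_ℝ * a4 - (1 - s) * ⟪i u, i u⟫_ℝ ^ 2 * a3
      have a7 : d * (((1 - s) ^ 2 + s ^ 2) * ⟪i u, i u⟫_ℝ ^ 2) = 0 := by
        linear_combination (1 - s) * a4 + s * ⟪i u, i u⟫_ℝ * a3
      simp [(mul_eq_zero.1 a6).resolve_right a5.ne', (mul_eq_zero.1 a7).resolve_right a5.ne']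
  obtain ⟨ρ, hρ, p1⟩ := Metric.eventually_nhds_iff.1 (pertB H.cpt (H.frOp _) (H.symOp (mM 0 β 0))
    (c := c) fun k hk h2 => nd 1 ⟨zero_le_one, le_rfl⟩ k hk (by simpa using h2))
  refine ⟨mR, b0, ?_⟩
  filter_upwards [homp H (mM 0 β 0) (A.sub_mem mW mE) hc nd, Ioo_mem_nhdsGT hρ,
    ho.def (half_pos hρ)] with δ ⟨d1, d2, d3⟩ ⟨d0, d4⟩ d5
  rw [show M 0 β 0 + δ • (tt (J (i u)) - tt (i e)) = M (-δ) β δ by simp only [M]; module] at d1 d3
  have b1 : ∀ s ∈ Icc (0 : ℝ) 1,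
      Bijective (Op i L (M 0 β 0 + δ • c + s • (a δ - (M 0 β 0 + δ • c)))) := fun s hs => by
    have := @p1 (δ, c + (s * δ⁻¹) • (a δ - (h - l • P + β • tt (i u)) - δ • c)) (by
      rw [Prod.dist_eq, max_lt_iff, dist_zero_right, dist_self_add_left, norm_smul, norm_mul,
        norm_inv, Real.norm_of_nonneg hs.1, Real.norm_of_nonneg d0.le]
      rw [Real.norm_of_nonneg d0.le] at d5
      refine ⟨d4, lt_of_le_of_lt ?_ (half_lt_self hρ)⟩
      calc _ ≤ 1 * δ⁻¹ * (ρ / 2 * δ) := by gcongr; exact hs.2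
        _ = _ := by field_simp) d0.ne'
    rw [← Op_add] at this
    convert this using 3
    simp only [M, smul_add, smul_smul, mul_left_comm δ, mul_inv_cancel₀ d0.ne']
    module
  have b2 : Bijective (Op i L (a δ)) := by simpa using b1 1 ⟨zero_le_one, le_rfl⟩
  have m1 := A.add_mem (mM 0 β 0) (A.smul_mem δ hc)
  have g1 := H.hom _ (mM (-1) ε ε) _ (mM (-δ) β δ) fun s hs => by
    have cv : ∀ x y : ℝ, 0 < x → 0 < y → 0 < (1 - s) * x + s * y := fun x y hx hy =>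
      convex_Ioi (0 : ℝ) hx hy (sub_nonneg.2 hs.2) hs.1 (sub_add_cancel _ _)
    have := bM (-((1 - s) * 1 + s * δ)) _ _ (neg_lt_zero.2 (cv _ _ one_pos d0)) (cv _ _ e0 hβ)
      (cv _ _ e0 d0)
    convert this using 3
    simp only [M]
    module
  refine ⟨b2, ?_⟩
  rw [← H.add _ mR _ m1 _ (ha δ) b0 d2 b2, H.hom _ m1 _ (ha δ) b1,
    ← H.add _ mR _ (mM _ _ _) _ m1 b0 d1 d2, d3, ← H.add _ mR _ (mM _ _ _) _ (mM _ _ _) b0 e2 d1, g1,
    ← H.add _ mR _ (mRs _) _ (mM _ _ _) b0 e1 e2, e3, c1]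
  ring

end Crest.Agent.X212.Deg23
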